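import Vale.Agent.P141.H457.DictBC
import Vale.Agent.P141.H419.PairB
import Vale.Agent.P141.H389.PathA

/-!
# P141, line (A), TI, the pair `(B~, C~)`: real families of the hub `x₁`

`wpair` : time dependent slots `b k x y`, `c k x z` (arbitrary changes on row pieces) and the moving
weight of `H419.Wt` are an instance of `H419.PairB.WPair`.
-/

set_option linter.unusedSectionVars false

namespace Vale.Agent.P141.H457

open Finset Matrix
open Vale.Agent.P075 (Ix val bd rad res phi exists_sq psd_isSymm psd_conj_symm trace_mul_nonneg)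
open Vale.Agent.P141.PL (iv ix mem_iv)
open Vale.Agent.P141.PL.H588 (hd)
open Vale.Agent.P141.PL.H103 Vale.Agent.P141.H103
open Vale.Agent.P141.H585.PairCh (phs)
open Vale.Agent.P141.H419.PairW (pq pg pg_root pg_psd bt bt_cap)
open Vale.Agent.P141.H419.PairB (WPair)
open Vale.Agent.P141.H389 (mn)
open Vale.Agent.P141.H874

noncomputable section

/-! ### The second slot: monotone, additive in the price -/

section pgl

variable {n : Type*} [Fintype n] [DecidableEq n]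

theorem tr_pg_mono {s : ℝ} (hs : 0 < s) {Θ S G E Q : Matrix n n ℝ} (hΘ : Θᵀ = Θ) (hS : Sᵀ = S)
    (hSu : IsUnit S.det) (hG : G.PosSemidef) (hE : E.PosSemidef) (hQ : Q.PosSemidef) :
    (Q * pg s Θ (S * S) G).trace ≤ (Q * pg s Θ (S * S) (G + E)).trace := by
  have hSi : (S⁻¹)ᵀ = S⁻¹ := by rw [transpose_nonsing_inv, hS]
  rw [pg_root hs hS hSu hG, pg_root hs hS hSu (hG.add hE)]
  have e1 : S * (G + E) * S = S * G * S + S * E * S := by
    rw [Matrix.mul_add, Matrix.add_mul]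
  rw [e1]
  have h1 := H389.phs_mono hs (psd_conj_symm hG hS) (psd_conj_symm hE hS)
  have h2 := psd_conj_symm (psd_conj_symm h1 hSi) hΘ
  have h3 := trace_mul_nonneg hQ h2
  simp only [Matrix.mul_sub, Matrix.sub_mul, trace_sub] at h3
  linarith

theorem tr_pg_add {s τ q : ℝ} (hs : 0 < s) (hq0 : 0 ≤ q) (hτ0 : 0 ≤ τ) {Θ S G F Q : Matrix n n ℝ}
    (hΘ : Θᵀ = Θ) (hS : Sᵀ = S) (hSu : IsUnit S.det) (hτ : (τ • (S * S) - Θ * Θ).PosSemidef)
    (hG : G.PosSemidef) (hF : F.PosSemidef) (hQ : Q.PosSemidef)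
    (hq : (q • (1 : Matrix n n ℝ) - Q).PosSemidef) :
    (Q * pg s Θ (S * S) (G + F)).trace ≤ (Q * pg s Θ (S * S) G).trace +
      q * τ * (S * S * F).trace := by
  have hSi : (S⁻¹)ᵀ = S⁻¹ := by rw [transpose_nonsing_inv, hS]
  obtain ⟨B, hB, rfl⟩ := exists_sq hQ
  have hBt := psd_isSymm hB
  have hc := bt_cap (B := B) hq0 hΘ hS hSu hτ (by rwa [hBt])
  rw [pg_root hs hS hSu hG, pg_root hs hS hSu (hG.add hF)]
  have e1 : S * (G + F) * S = S * G * S + S * F * S := by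
    rw [Matrix.mul_add, Matrix.add_mul]
  rw [e1]
  have pY := psd_conj_symm hG hS
  have pZ := psd_conj_symm hF hS
  have h1 := H389.phs_mono hs pY pZ
  have h2 := trace_mul_nonneg h1 hc
  rw [Matrix.mul_sub, Matrix.mul_smul, Matrix.mul_one, trace_sub, trace_smul, smul_eq_mul,
    trace_sub] at h2
  have h3 := H389.tr_phs_add_le hs pY pZ
  have e2 : (S * F * S).trace = (S * S * F).trace := by
    rw [trace_mul_comm, ← Matrix.mul_assoc]
  have e3 : ∀ Z : Matrix n n ℝ, (B * B * (Θ * (S⁻¹ * Z * S⁻¹) * Θ)).trace =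
      (Z * (bt Θ S B * (bt Θ S B)ᵀ)).trace := by
    intro Z
    unfold bt
    rw [transpose_mul, transpose_mul, hSi, hΘ, hBt]
    have a1 : B * B * (Θ * (S⁻¹ * Z * S⁻¹) * Θ) = (B * B * Θ * S⁻¹) * (Z * (S⁻¹ * Θ)) := by
      simp only [Matrix.mul_assoc]
    rw [a1, trace_mul_comm]
    simp only [Matrix.mul_assoc]
  rw [Matrix.sub_mul, trace_sub] at h2
  rw [e3, e3]
  have h4 := mul_le_mul_of_nonneg_left h3 (mul_nonneg hq0 hτ0)
  rw [e2] at h4
  linarith

theorem unit_GW {ν : ℝ} (hν : 0 < ν) {G W : Matrix n n ℝ} (hG : G.PosSemidef)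
    (hW : W.PosSemidef) : IsUnit (1 + ν • (G * W)).det := by
  obtain ⟨c, hc, rfl⟩ := exists_sq hG
  have hct := psd_isSymm hc
  have e : (1 + ν • (c * c * W)).det = (1 + ν • (c * W * c)).det := by
    rw [Matrix.mul_assoc, ← Matrix.mul_smul, Matrix.det_one_add_mul_comm, Matrix.smul_mul]
  rw [e]
  exact (P075.det_pos_one_add ((psd_conj_symm hW hct).smul hν.le)).ne'.isUnit

theorem bd_inv' {A D : Matrix n n ℝ} (hA : IsUnit A.det) (hD : IsUnit D.det) :
    (bd A D)⁻¹ = bd A⁻¹ D⁻¹ := by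
  refine inv_eq_right_inv ?_
  rw [P075.bd_mul, mul_nonsing_inv _ hA, mul_nonsing_inv _ hD, bd, fromBlocks_one]

theorem pg_bd {s : ℝ} (hs : 0 < s) {Θ₀ Θ₁ W₀ W₁ G₀ G₁ : Matrix n n ℝ} (hW0 : W₀.PosSemidef)
    (hW1 : W₁.PosSemidef) (hG0 : G₀.PosSemidef) (hG1 : G₁.PosSemidef) :
    pg s (bd Θ₀ Θ₁) (bd W₀ W₁) (bd G₀ G₁) = bd (pg s Θ₀ W₀ G₀) (pg s Θ₁ W₁ G₁) := by
  have hi := inv_pos.2 hs
  have e1 : (1 : Matrix (n ⊕ n) (n ⊕ n) ℝ) + s⁻¹ • bd (G₀ * W₀) (G₁ * W₁) =
      bd (1 + s⁻¹ • (G₀ * W₀)) (1 + s⁻¹ • (G₁ * W₁)) := by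
    rw [bd, bd, fromBlocks_smul, ← fromBlocks_one, fromBlocks_add]
    simp
  unfold pg pq
  rw [P075.bd_mul, e1, bd_inv' (unit_GW hi hG0 hW0) (unit_GW hi hG1 hW1), P075.bd_mul,
    P075.bd_mul, P075.bd_mul]

theorem pg_sub {m : Type*} [Fintype m] [DecidableEq m] (e : m ≃ n) (s : ℝ)
    (Θ W G : Matrix n n ℝ) : pg s (Θ.submatrix e e) (W.submatrix e e) (G.submatrix e e) =
      (pg s Θ W G).submatrix e e := by
  have e1 : s⁻¹ • (G * W).submatrix e e = (s⁻¹ • (G * W)).submatrix e e := rfl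
  unfold pg pq
  rw [mul_sub', e1, sub_one, inv_submatrix_equiv, mul_sub', mul_sub', mul_sub']

end pgl

variable {κ : Type*} [Fintype κ] [DecidableEq κ]

/-! ### Changes on row pieces -/

open scoped Classical in
/-- the slot restricted to the row pieces in `P` (outer point, hub cell) -/
def rs (P : ℤ → ℤ → Prop) (k : ℕ) (f : ℤ → ℤ → κ → ℝ) : ℤ → ℤ → κ → ℝ := fun x w =>
  if P w (ix k x) then f x w else 0

/-- **Change of the Gram matrix of the hub.** -/
theorem CP_change {k : ℕ} {P : ℤ → ℤ → Prop} {f f' : ℤ → ℤ → κ → ℝ}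
    (h : ∀ w m, ¬ P w m → ∀ x ∈ iv k m, f' x w = f x w) (a : ℕ) (n m : ℤ) :
    CP f k a n m + CP (rs P k f') k a n m = CP f' k a n m + CP (rs P k f) k a n m := by
  ext p q
  simp only [CP, BM, XR, Matrix.add_apply, Matrix.smul_apply, Matrix.sum_apply, vecMulVec_apply,
    smul_eq_mul]
  rw [← mul_add, ← mul_add, ← mul_add, ← mul_add, ← Finset.sum_add_distrib,
    ← Finset.sum_add_distrib]
  congr 2
  refine Finset.sum_congr rfl fun w _ => ?_
  by_cases hP : P w m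
  · simp only [rs, H389.cell_ix, hP, if_true]
    ring
  · have h1 := h w m hP _ (mem_iv.2 (H389.cell_ix p.1))
    have h2 := h w m hP _ (mem_iv.2 (H389.cell_ix q.1))
    simp only [rs, H389.cell_ix, hP, if_false, h1, h2]

theorem CP_chg {k : ℕ} {P : ℤ → ℤ → Prop} {f f' : ℤ → ℤ → κ → ℝ}
    (h : ∀ w m, ¬ P w m → ∀ x ∈ iv k m, f' x w = f x w) (a : ℕ) (n m : ℤ) :
    (CP f k a n m + CP (rs P k f') k a n m - CP f' k a n m).PosSemidef := by
  rw [CP_change h, add_sub_cancel_left]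
  exact CP_psd _ _ _ _ _

/-! ### The instance -/

section inst

variable {be : ℝ} {T e d : ℕ → ℤ → ℤ → Matrix κ κ ℝ}

/-- the price of the changes: births of the first slot against the second one, mass of the changes
of the second slot -/
def xk (be s q τ : ℝ) (T : ℕ → ℤ → ℤ → Matrix κ κ ℝ) (Pb Pc : ℕ → ℤ → ℤ → Prop)
    (b c : ℕ → ℤ → ℤ → κ → ℝ) (k : ℕ) (n n' h : ℤ) : ℝ :=
  (mn (fun n => CP (rs (Pb k) k (b (k + 1))) k k n h) n *
      mn (fun n => PG be s T (c (k + 1)) k k n h) n').trace +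
    q * τ * ((1 / 2) * ((WD be T k k (2 * n') h * CP (rs (Pc k) k (c (k + 1))) k k (2 * n') h).trace +
      (WD be T k k (2 * n' + 1) h * CP (rs (Pc k) k (c (k + 1))) k k (2 * n' + 1) h).trace))

theorem mn_CP (f : ℤ → ℤ → κ → ℝ) (k : ℕ) (n h : ℤ) :
    mn (fun n => CP f k k n h) n = CP f k (k + 1) n h :=
  (CP_out (k + 1) k f k le_rfl (Nat.lt_succ_self k) n h).symm

theorem tr_half {n : Type*} [Fintype n] [DecidableEq n] (Q X Y : Matrix n n ℝ) :
    (1 / 2) * ((Q * X).trace + (Q * Y).trace) = (Q * ((1 / 2 : ℝ) • (X + Y))).trace := by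
  rw [Matrix.mul_smul, trace_smul, smul_eq_mul, Matrix.mul_add, trace_add]

/-- **The instance.** -/
theorem wpair (hb : 0 < be) {s q τ : ℝ} (hs : 0 < s) (hq0 : 0 ≤ q) (hτ0 : 0 ≤ τ)
    (hT : H419.Wt T e d) (hTτ : ∀ k x m, (τ • (1 : Matrix κ κ ℝ) - T k x m).PosSemidef)
    {N : ℕ} {b c : ℕ → ℤ → ℤ → κ → ℝ} {Pb Pc : ℕ → ℤ → ℤ → Prop}
    (hPb : ∀ k < N, ∀ w m, ¬ Pb k w m → ∀ x ∈ iv k m, b (k + 1) x w = b k x w)
    (hPc : ∀ k < N, ∀ w m, ¬ Pc k w m → ∀ x ∈ iv k m, c (k + 1) x w = c k x w)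
    (cap : ∀ k < N, ∀ n m, (q • (1 : Matrix (Ix k × κ) (Ix k × κ) ℝ) - CP (b k) k k n m).PosSemidef)
    (cap1 : ∀ k < N, ∀ n m,
      (q • (1 : Matrix (Ix k × κ) (Ix k × κ) ℝ) - CP (b (k + 1)) k k n m).PosSemidef)
    (capN : ∀ n m, (q • (1 : Matrix (Ix N × κ) (Ix N × κ) ℝ) - CP (b N) N N n m).PosSemidef) :
    WPair (ι := fun k => Ix k × κ) N 0 s q τ (fun k a n m => CP (b k) k a n m)
      (fun k a n m => PG be s T (c k) k a n m)
      (fun k n m => TD T (k + 1) (k + 1) n m) (fun k n m => SD be T (k + 1) (k + 1) n m)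
      (fun k n m => CP (c (k + 1)) (k + 1) (k + 1) n m) (fun k => sk (k + 1) κ)
      (fun k n h => CP (b (k + 1)) k (k + 1) n h) (fun k n h => TD T k (k + 1) n h)
      (fun k n h => SD be T k (k + 1) n h) (fun k n h => TD e k k n h)
      (fun k n h => TD d k k n h) (fun k n h => CP (c (k + 1)) k k (2 * n) h)
      (fun k n h => CP (c (k + 1)) k k (2 * n + 1) h) (xk be s q τ T Pb Pc b c) where
  sP k a n m := CP_symm _ _ _ _ _
  sV k a n m := psd_isSymm (PG_psd hs hb hT.ps _ _ _ _ _)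
  hr k := sk_tr _
  hr2 k := sk_sq _
  pP k _ _ n m := CP_psd _ _ _ _ _
  capP k _ h2 n m := by
    rcases Nat.lt_or_ge (k + 1) N with h | h
    · exact cap (k + 1) h n m
    · have e : k + 1 = N := by omega
      subst e
      exact capN n m
  parV k _ _ n m := by
    rw [SD_sq hb hT.ps]
    rfl
  sΘ k n m := psd_isSymm (TD_psd hT.ps _ _ _ _)
  pR k n m := SD_psd hb hT.ps _ _ _ _
  uR k n m := SD_unit hb hT.ps _ _ _ _
  pG k n m := CP_psd _ _ _ _ _
  tΘ k n m := by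
    rw [SD_sq hb hT.ps]
    exact WD_sq hb.le hτ0 hT.ps hTτ _ _ _ _
  rR k n m := sk_DB _ _ _
  rΘ k n m := sk_DB _ _ _
  sP' k n m := CP_psd _ _ _ _ _
  capP' k _ h2 n m := by
    have h0 := ((cap1 k h2 (2 * n) m).add (cap1 k h2 (2 * n + 1) m)).smul
      (show (0 : ℝ) ≤ 1 / 2 by norm_num)
    rw [← mn_CP]
    unfold mn
    have e : (1 / 2 : ℝ) • (q • (1 : Matrix (Ix k × κ) (Ix k × κ) ℝ) -
        CP (b (k + 1)) k k (2 * n) m + (q • (1 : Matrix (Ix k × κ) (Ix k × κ) ℝ) -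
        CP (b (k + 1)) k k (2 * n + 1) m)) = q • (1 : Matrix (Ix k × κ) (Ix k × κ) ℝ) -
        (1 / 2 : ℝ) • (CP (b (k + 1)) k k (2 * n) m + CP (b (k + 1)) k k (2 * n + 1) m) := by
      module
    rwa [e] at h0
  sΘp k n m := psd_isSymm (TD_psd hT.ps _ _ _ _)
  sS k n m := psd_isSymm (SD_psd hb hT.ps _ _ _ _)
  uS k n m := SD_unit hb hT.ps _ _ _ _
  sM k n m := TD_tr (fun k x m => hT.d_symm k x m) _ _ _ _
  pE k n m := TD_psd hT.pe _ _ _ _
  tS k n m := by
    rw [SD_sq hb hT.ps]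
    exact WD_sq hb.le hτ0 hT.ps hTτ _ _ _ _
  w0 k n m := by
    rw [SD_sq hb hT.ps, ← WD_even hT]
    exact (WD_posDef hb hT.ps _ _ _ _).posSemidef
  w1 k n m := by
    rw [SD_sq hb hT.ps, ← WD_odd hT]
    exact (WD_posDef hb hT.ps _ _ _ _).posSemidef
  g0 k n m := CP_psd _ _ _ _ _
  g1 k n m := CP_psd _ _ _ _ _
  blk k _ _ n n' m := by
    refine le_of_eq ?_
    have hsub : (sk (k + 1) κ).submatrix (eS k κ) (eS k κ) = rad (Ix k × κ) := sk_split k
    have eG : (CP (c (k + 1)) (k + 1) (k + 1) n' m + sk (k + 1) κ *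
        CP (c (k + 1)) (k + 1) (k + 1) n' m * sk (k + 1) κ).submatrix (eS k κ) (eS k κ) =
        bd (CP (c (k + 1)) k (k + 1) n' (2 * m)) (CP (c (k + 1)) k (k + 1) n' (2 * m + 1)) := by
      rw [submatrix_add, Pi.add_apply, Pi.add_apply, ← mul_sub', ← mul_sub', hsub]
      exact BM_split k m _
    have eT : (TD T (k + 1) (k + 1) n' m).submatrix (eS k κ) (eS k κ) =
        bd (TD T k (k + 1) n' (2 * m)) (TD T k (k + 1) n' (2 * m + 1)) := DB_split _ _ _
    have eW : (WD be T (k + 1) (k + 1) n' m).submatrix (eS k κ) (eS k κ) =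
        bd (WD be T k (k + 1) n' (2 * m)) (WD be T k (k + 1) n' (2 * m + 1)) := DB_split _ _ _
    have l0 : ((CP (b (k + 1)) (k + 1) (k + 1) n m).submatrix (eS k κ) (eS k κ)).toBlocks₁₁ =
        (1 / 2 : ℝ) • CP (b (k + 1)) k (k + 1) n (2 * m) := BM_ll _ _ _
    have l1 : ((CP (b (k + 1)) (k + 1) (k + 1) n m).submatrix (eS k κ) (eS k κ)).toBlocks₂₂ =
        (1 / 2 : ℝ) • CP (b (k + 1)) k (k + 1) n (2 * m + 1) := BM_rr _ _ _
    have e0 := mn_CP (c (k + 1)) k n' (2 * m)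
    have e1 := mn_CP (c (k + 1)) k n' (2 * m + 1)
    unfold mn at e0 e1
    rw [SD_sq hb hT.ps, SD_sq hb hT.ps, SD_sq hb hT.ps, e0, e1, ← trace_sub' (eS k κ), ← mul_sub',
      ← pg_sub, eG, eT, eW, pg_bd hs (WD_posDef hb hT.ps k (k + 1) n' (2 * m)).posSemidef
      (WD_posDef hb hT.ps k (k + 1) n' (2 * m + 1)).posSemidef (CP_psd _ _ _ _ _)
      (CP_psd _ _ _ _ _), trace_bd_mul, l0, l1, Matrix.smul_mul, Matrix.smul_mul, trace_smul,
      trace_smul, smul_eq_mul, smul_eq_mul]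
    ring
  kill k _ h2 n n' h := by
    have hp := hT.ps
    rw [SD_sq hb hp, ← TD_even hT, ← TD_odd hT, ← WD_even hT, ← WD_odd hT]
    have eP := mn_CP (b (k + 1)) k n h
    set Q' := CP (b (k + 1)) k (k + 1) n h with hQ'
    set V₀ := PG be s T (c (k + 1)) k k (2 * n') h with hV₀
    set V₁ := PG be s T (c (k + 1)) k k (2 * n' + 1) h with hV₁
    have pV : (mn (fun n => PG be s T (c (k + 1)) k k n h) n').PosSemidef := by
      unfold mn
      exact ((PG_psd hs hb hp _ _ _ _ _).add (PG_psd hs hb hp _ _ _ _ _)).smul (by norm_num)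
    have eL : (1 / 2) * ((Q' * pg s (TD T k k (2 * n') h) (WD be T k k (2 * n') h)
        (CP (c (k + 1)) k k (2 * n') h)).trace + (Q' * pg s (TD T k k (2 * n' + 1) h)
        (WD be T k k (2 * n' + 1) h) (CP (c (k + 1)) k k (2 * n' + 1) h)).trace) =
        (Q' * mn (fun n => PG be s T (c (k + 1)) k k n h) n').trace := by
      rw [tr_half]
      rfl
    rw [eL]
    -- the first slot
    set Q := mn (fun n => CP (b k) k k n h) n with hQ
    set E := mn (fun n => CP (rs (Pb k) k (b (k + 1))) k k n h) n with hE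
    have pQ : Q.PosSemidef := by
      rw [hQ, mn_CP]
      exact CP_psd _ _ _ _ _
    have cQ : (q • (1 : Matrix (Ix k × κ) (Ix k × κ) ℝ) - Q).PosSemidef := by
      have h0 := ((cap k h2 (2 * n) h).add (cap k h2 (2 * n + 1) h)).smul
        (show (0 : ℝ) ≤ 1 / 2 by norm_num)
      rw [hQ]
      unfold mn
      have e : (1 / 2 : ℝ) • (q • (1 : Matrix (Ix k × κ) (Ix k × κ) ℝ) -
          CP (b k) k k (2 * n) h + (q • (1 : Matrix (Ix k × κ) (Ix k × κ) ℝ) -
          CP (b k) k k (2 * n + 1) h)) = q • (1 : Matrix (Ix k × κ) (Ix k × κ) ℝ) -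
          (1 / 2 : ℝ) • (CP (b k) k k (2 * n) h + CP (b k) k k (2 * n + 1) h) := by
        module
      rwa [e] at h0
    have hch : (Q + E - Q').PosSemidef := by
      rw [hQ, hE, mn_CP, mn_CP]
      exact CP_chg (hPb k h2) (k + 1) n h
    have h1 := trace_mul_nonneg hch pV
    rw [Matrix.sub_mul, Matrix.add_mul, trace_sub, trace_add] at h1
    -- the second slot
    have key : ∀ n'', (Q * PG be s T (c (k + 1)) k k n'' h).trace ≤
        (Q * PG be s T (c k) k k n'' h).trace +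
          q * τ * (WD be T k k n'' h * CP (rs (Pc k) k (c (k + 1))) k k n'' h).trace := by
      intro n''
      have hS := psd_isSymm (SD_psd hb hp k k n'' h)
      have hU := SD_unit hb hp k k n'' h
      have hΘ := psd_isSymm (TD_psd hp k k n'' h)
      have hτ' : (τ • (SD be T k k n'' h * SD be T k k n'' h) -
          TD T k k n'' h * TD T k k n'' h).PosSemidef := by
        rw [SD_sq hb hp]
        exact WD_sq hb.le hτ0 hp hTτ _ _ _ _
      have g := CP_change (hPc k h2) k n'' h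
      have a1 := tr_pg_mono hs hΘ hS hU (CP_psd (c (k + 1)) k k n'' h)
        (CP_psd (rs (Pc k) k (c k)) k k n'' h) pQ
      have a2 := tr_pg_add hs hq0 hτ0 hΘ hS hU hτ' (CP_psd (c k) k k n'' h)
        (CP_psd (rs (Pc k) k (c (k + 1))) k k n'' h) pQ cQ
      rw [g] at a2
      rw [SD_sq hb hp] at a1 a2
      exact a1.trans a2
    have k0 := key (2 * n')
    have k1 := key (2 * n' + 1)
    have e2 : ∀ f : ℤ → ℤ → κ → ℝ, (Q * mn (fun n => PG be s T f k k n h) n').trace =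
        (1 / 2) * ((Q * PG be s T f k k (2 * n') h).trace +
          (Q * PG be s T f k k (2 * n' + 1) h).trace) := by
      intro f
      rw [tr_half]
      rfl
    rw [e2] at h1
    rw [e2]
    unfold xk
    linarith

end inst

end

end Vale.Agent.P141.H457
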