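import Vale.Agent.P141.H874.LightQ
import Vale.Agent.P141.H419.MidL

/-!
# P141, line (A), TI: the hub `x₁` with labels, moving weight, real letters

Block diagonal matrices `DB k m M` (one matrix `M x` for every point `x` of the hub cell), the
column matrix `CM` of a vector slot (`CM CMᵀ = CP`), the moving weight `β + T` of a tree with
drift in the outer variable, traces as averages.
-/

namespace Vale.Agent.P141.H457

open Finset Matrix Vale.Agent.P141.PL Vale.Agent.P141.PL.H103 Vale.Agent.P141.H103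
open Vale.Agent.P141.PL.H804 Vale.Agent.P075
open Vale.Agent.P141.H874

set_option linter.unusedSectionVars false

noncomputable section

variable {κ : Type*} [Fintype κ] [DecidableEq κ]

/-! ### Block diagonal matrices -/

theorem DB_add (k : ℕ) (m : ℤ) (M M' : ℤ → Matrix κ κ ℝ) :
    DB k m M + DB k m M' = DB k m fun x => M x + M' x := by
  ext p q
  simp only [DB, Matrix.add_apply]
  split_ifs <;> simp

theorem DB_sub (k : ℕ) (m : ℤ) (M M' : ℤ → Matrix κ κ ℝ) :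
    DB k m M - DB k m M' = DB k m fun x => M x - M' x := by
  ext p q
  simp only [DB, Matrix.sub_apply]
  split_ifs <;> simp

theorem DB_smul (k : ℕ) (m : ℤ) (r : ℝ) (M : ℤ → Matrix κ κ ℝ) :
    r • DB k m M = DB k m fun x => r • M x := by
  ext p q
  simp only [DB, Matrix.smul_apply, smul_eq_mul]
  split_ifs <;> simp

theorem DB_one (k : ℕ) (m : ℤ) : DB k m (fun _ => (1 : Matrix κ κ ℝ)) = 1 := by
  ext ⟨i, a⟩ ⟨j, b⟩
  simp only [DB, Matrix.one_apply, Prod.mk.injEq]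
  by_cases h1 : i = j <;> by_cases h2 : a = b <;> simp [h1, h2]

theorem DB_mul (k : ℕ) (m : ℤ) (M M' : ℤ → Matrix κ κ ℝ) :
    DB k m M * DB k m M' = DB k m fun x => M x * M' x := by
  refine bk_ext fun i j => ?_
  rw [bk_mul]
  simp only [bk_DB, ite_mul, zero_mul, mul_ite, mul_zero]
  by_cases h : i = j
  · subst h; simp
  · simp [h]

theorem DB_posDef {k : ℕ} {m : ℤ} {M : ℤ → Matrix κ κ ℝ} {r : ℝ} (hr : 0 < r)
    (h : ∀ x, (M x - r • (1 : Matrix κ κ ℝ)).PosSemidef) : (DB k m M).PosDef := by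
  have h1 := DB_psd (k := k) (m := m) h
  rw [← DB_sub, ← DB_smul, DB_one] at h1
  have h2 : (r • (1 : Matrix (Ix k × κ) (Ix k × κ) ℝ)).PosDef := PosDef.one.smul hr
  have := h2.add_posSemidef h1
  rwa [add_sub_cancel] at this

theorem DB_inv {k : ℕ} {m : ℤ} {M : ℤ → Matrix κ κ ℝ} (h : ∀ x, (M x).PosDef) :
    (DB k m M)⁻¹ = DB k m fun x => (M x)⁻¹ := by
  refine inv_eq_right_inv ?_
  rw [DB_mul, ← DB_one k m]
  congr 1
  funext x
  exact mul_nonsing_inv _ ((isUnit_iff_isUnit_det _).mp (h x).isUnit)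

/-- the two halves of the hub -/
theorem DB_split (k : ℕ) (m : ℤ) (M : ℤ → Matrix κ κ ℝ) :
    (DB (k + 1) m M).submatrix (eS k κ) (eS k κ) = bd (DB k (2 * m) M) (DB k (2 * m + 1) M) := by
  ext p q
  rcases p with ⟨i, a⟩ | ⟨i, a⟩ <;> rcases q with ⟨j, b⟩ | ⟨j, b⟩
  · have h : (DB (k + 1) m M).submatrix (eS k κ) (eS k κ) (Sum.inl (i, a)) (Sum.inl (j, b))
        = if (Sum.inl i : Ix k ⊕ Ix k) = Sum.inl j then M (2 ^ (k + 1) * m + val k i) a b
          else 0 := rfl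
    rw [h]
    simp only [bd, fromBlocks_apply₁₁, DB, Sum.inl.injEq,
      show (2 : ℤ) ^ (k + 1) * m = 2 ^ k * (2 * m) by ring]
  · have h : (DB (k + 1) m M).submatrix (eS k κ) (eS k κ) (Sum.inl (i, a)) (Sum.inr (j, b))
        = if (Sum.inl i : Ix k ⊕ Ix k) = Sum.inr j then M (2 ^ (k + 1) * m + val k i) a b
          else 0 := rfl
    rw [h]
    simp [bd]
  · have h : (DB (k + 1) m M).submatrix (eS k κ) (eS k κ) (Sum.inr (i, a)) (Sum.inl (j, b))
        = if (Sum.inr i : Ix k ⊕ Ix k) = Sum.inl j then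
          M (2 ^ (k + 1) * m + ((2 ^ k + val k i : ℕ) : ℤ)) a b else 0 := rfl
    rw [h]
    simp [bd]
  · have h : (DB (k + 1) m M).submatrix (eS k κ) (eS k κ) (Sum.inr (i, a)) (Sum.inr (j, b))
        = if (Sum.inr i : Ix k ⊕ Ix k) = Sum.inr j then
          M (2 ^ (k + 1) * m + ((2 ^ k + val k i : ℕ) : ℤ)) a b else 0 := rfl
    have e : (2 : ℤ) ^ (k + 1) * m + ((2 ^ k + val k i : ℕ) : ℤ)
        = 2 ^ k * (2 * m + 1) + val k i := by
      push_cast; ring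
    rw [h, e]
    simp only [bd, fromBlocks_apply₂₂, DB, Sum.inr.injEq]

/-! ### The column matrix of a vector slot -/

/-- rows `(x, label)` of the hub cell, columns the points of the outer cell -/
def CM (c : ℤ → ℤ → κ → ℝ) (k a : ℕ) (n m : ℤ) : Matrix (Ix k × κ) (Ix a) ℝ := fun p j =>
  (√((2 : ℝ) ^ k * 2 ^ a))⁻¹ * c (2 ^ k * m + val k p.1) (2 ^ a * n + val a j) p.2

omit [DecidableEq κ] [Fintype κ] in
theorem CM_mul (c : ℤ → ℤ → κ → ℝ) (k a : ℕ) (n m : ℤ) :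
    CM c k a n m * (CM c k a n m)ᵀ = CP c k a n m := by
  ext p q
  have h0 : (0 : ℝ) ≤ 2 ^ k * 2 ^ a := by positivity
  have e : (√((2 : ℝ) ^ k * 2 ^ a))⁻¹ * (√((2 : ℝ) ^ k * 2 ^ a))⁻¹
      = ((2 : ℝ) ^ k)⁻¹ * ((2 : ℝ) ^ a)⁻¹ := by
    rw [← mul_inv, Real.mul_self_sqrt h0, mul_inv]
  simp only [Matrix.mul_apply, transpose_apply, CM, CP, BM, XR, Matrix.smul_apply,
    Matrix.sum_apply, vecMulVec_apply, smul_eq_mul]
  rw [H588.sum_iv, ← mul_assoc, ← e, Finset.mul_sum]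
  exact Finset.sum_congr rfl fun j _ => by ring

/-- traces against block diagonal matrices are averages -/
theorem trace_CP_DB (b : ℤ → ℤ → κ → ℝ) (F : ℤ → Matrix κ κ ℝ) (k a : ℕ) (n m : ℤ) :
    (CP b k a n m * DB k m F).trace
      = ((2 : ℝ) ^ k * 2 ^ a)⁻¹ * ∑ x ∈ iv k m, ∑ y ∈ iv a n, b x y ⬝ᵥ F x *ᵥ b x y := by
  rw [trace_mul_bk, H588.sum_iv, mul_inv, mul_assoc, Finset.mul_sum, Finset.mul_sum]
  refine Finset.sum_congr rfl fun i _ => ?_
  unfold CP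
  simp only [bk_BM, bk_DB]
  rw [Finset.sum_eq_single i]
  · rw [if_pos rfl, Matrix.smul_mul, trace_smul, smul_eq_mul, XR, Matrix.smul_mul, trace_smul,
      smul_eq_mul, Matrix.sum_mul, trace_sum]
    congr 2
    refine Finset.sum_congr rfl fun y _ => ?_
    rw [vecMulVec_mul, trace_vecMulVec, dotProduct_comm, ← dotProduct_mulVec]
  · intro j _ hj
    rw [if_neg hj, Matrix.mul_zero, trace_zero]
  · simp

theorem trace_CM_DB (c : ℤ → ℤ → κ → ℝ) (F : ℤ → Matrix κ κ ℝ) (k a : ℕ) (n m : ℤ) :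
    ((CM c k a n m)ᵀ * DB k m F * CM c k a n m).trace
      = ((2 : ℝ) ^ k * 2 ^ a)⁻¹ * ∑ x ∈ iv k m, ∑ y ∈ iv a n, c x y ⬝ᵥ F x *ᵥ c x y := by
  rw [trace_mul_comm, ← Matrix.mul_assoc, CM_mul, trace_CP_DB]

/-! ### The moving weight -/

/-- the slot matrix of the hub cell -/
def TD (T : ℕ → ℤ → ℤ → Matrix κ κ ℝ) (k a : ℕ) (n m : ℤ) :
    Matrix (Ix k × κ) (Ix k × κ) ℝ := DB k m fun x => T a x n

/-- the weight of the hub cell -/
def WD (be : ℝ) (T : ℕ → ℤ → ℤ → Matrix κ κ ℝ) (k a : ℕ) (n m : ℤ) :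
    Matrix (Ix k × κ) (Ix k × κ) ℝ := DB k m fun x => be • (1 : Matrix κ κ ℝ) + T a x n

variable {T e d : ℕ → ℤ → ℤ → Matrix κ κ ℝ}

theorem TD_even (h : H419.Wt T e d) (k a : ℕ) (n m : ℤ) :
    TD T k a (2 * n) m = TD T k (a + 1) n m - TD e k a n m + TD d k a n m := by
  unfold TD
  rw [DB_sub, DB_add]
  congr 1
  funext x
  exact h.even a x n

theorem TD_odd (h : H419.Wt T e d) (k a : ℕ) (n m : ℤ) :
    TD T k a (2 * n + 1) m = TD T k (a + 1) n m - TD e k a n m - TD d k a n m := by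
  unfold TD
  rw [DB_sub, DB_sub]
  congr 1
  funext x
  exact h.odd a x n

theorem WD_eq (be : ℝ) (T : ℕ → ℤ → ℤ → Matrix κ κ ℝ) (k a : ℕ) (n m : ℤ) :
    WD be T k a n m = be • 1 + TD T k a n m := by
  unfold WD TD
  rw [← DB_add, ← DB_smul, DB_one]

theorem WD_even (h : H419.Wt T e d) (be : ℝ) (k a : ℕ) (n m : ℤ) :
    WD be T k a (2 * n) m = WD be T k (a + 1) n m - TD e k a n m + TD d k a n m := by
  rw [WD_eq, WD_eq, TD_even h]
  abel

theorem WD_odd (h : H419.Wt T e d) (be : ℝ) (k a : ℕ) (n m : ℤ) :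
    WD be T k a (2 * n + 1) m = WD be T k (a + 1) n m - TD e k a n m - TD d k a n m := by
  rw [WD_eq, WD_eq, TD_odd h]
  abel

theorem TD_psd {T : ℕ → ℤ → ℤ → Matrix κ κ ℝ} (h : ∀ k x m, (T k x m).PosSemidef) (k a : ℕ)
    (n m : ℤ) : (TD T k a n m).PosSemidef := DB_psd fun x => h a x n

theorem TD_tr {T : ℕ → ℤ → ℤ → Matrix κ κ ℝ} (h : ∀ k x m, (T k x m)ᵀ = T k x m) (k a : ℕ)
    (n m : ℤ) : (TD T k a n m)ᵀ = TD T k a n m := DB_tr fun x => h a x n

theorem WD_posDef {be : ℝ} (hb : 0 < be) (h : ∀ k x m, (T k x m).PosSemidef) (k a : ℕ)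
    (n m : ℤ) : (WD be T k a n m).PosDef := by
  refine DB_posDef hb fun x => ?_
  rw [add_sub_cancel_left]
  exact h a x n

/-- `Θ² ≤ τ W` -/
theorem WD_sq {be τ : ℝ} (hb : 0 ≤ be) (hτ : 0 ≤ τ) (h : ∀ k x m, (T k x m).PosSemidef)
    (h2 : ∀ k x m, (τ • (1 : Matrix κ κ ℝ) - T k x m).PosSemidef) (k a : ℕ) (n m : ℤ) :
    (τ • WD be T k a n m - TD T k a n m * TD T k a n m).PosSemidef := by
  unfold WD TD
  rw [DB_smul, DB_mul, DB_sub]
  refine DB_psd fun x => ?_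
  have p := h a x n
  obtain ⟨B, hB, hBB⟩ := P075.exists_sq p
  have sB : Bᵀ = B := P075.psd_isSymm hB
  have h3 := P075.psd_conj_symm (h2 a x n) sB
  have e : B * (τ • 1 - T a x n) * B = τ • T a x n - T a x n * T a x n := by
    rw [← hBB, Matrix.mul_sub, Matrix.sub_mul, Matrix.mul_smul, Matrix.smul_mul, Matrix.mul_one]
    simp only [Matrix.mul_assoc]
  rw [e] at h3
  have h4 : ((τ * be) • (1 : Matrix κ κ ℝ)).PosSemidef := PosSemidef.one.smul (mul_nonneg hτ hb)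
  have := h4.add h3
  have e2 : τ • (be • (1 : Matrix κ κ ℝ) + T a x n) - T a x n * T a x n
      = (τ * be) • (1 : Matrix κ κ ℝ) + (τ • T a x n - T a x n * T a x n) := by
    rw [smul_add, smul_smul]
    abel
  rwa [e2]

/-- `M W⁻¹ M` is block diagonal -/
theorem MWM {be : ℝ} (hb : 0 < be) (h : ∀ k x m, (T k x m).PosSemidef)
    (M : ℤ → Matrix κ κ ℝ) (k a : ℕ) (n m : ℤ) :
    DB k m M * (WD be T k a n m)⁻¹ * DB k m M
      = DB k m fun x => M x * (be • (1 : Matrix κ κ ℝ) + T a x n)⁻¹ * M x := by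
  have hp : ∀ x, (be • (1 : Matrix κ κ ℝ) + T a x n).PosDef := fun x =>
    (PosDef.one.smul hb).add_posSemidef (h a x n)
  unfold WD
  rw [DB_inv hp, DB_mul, DB_mul]

end

end Vale.Agent.P141.H457
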