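import Vale.Agent.P141.H408.SkelTI
import Vale.Agent.P141.H419.PairW
import Vale.Agent.P141.H457.DBl

/-!
# P141, line (A), TI, the pair `(B~, C~)`: the node in the letters of the hub `x₁`

`rBC_le` : the saturated pair of `H408.SkelTI` at a node is at most the pairing of the raw Gram
matrix of `b` with `pg` (`H419.PairW`) of the Gram matrix of `C`, both reflected.
-/

namespace Vale.Agent.P141.H457

open Finset Matrix
open Vale.Agent.P075 (Ix val)
open Vale.Agent.P141.PL (Pt iv hs ix mem_iv ix_ix)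
open Vale.Agent.P141.PL.H588 (hd)
open Vale.Agent.P141.PL.H103 Vale.Agent.P141.H103
open Vale.Agent.P141.H585.PairCh (phs)
open Vale.Agent.P141.H652 (Th Th_psd)
open Vale.Agent.P141.H408 (sq_spec Wg Wg_pd Ct Bt QL hdL rBC)
open Vale.Agent.P141.H419.PairW (pq pg pg_root pg_psd)
open Vale.Agent.P141.H420 (Tr)
open Vale.Agent.P141.H874

noncomputable section

variable {κ : Type*} [Fintype κ] [DecidableEq κ]

omit [Fintype κ] in
theorem hdL_eq (k : ℕ) : hdL κ k = sk k κ := by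
  ext p q
  unfold hdL sk
  rw [kroneckerMap_apply, Matrix.one_apply]
  split_ifs <;> simp

omit [Fintype κ] [DecidableEq κ] in
/-- the Gram matrix of the skeleton is the static family -/
theorem QL_eq (k : ℕ) (f : ℤ → ℤ → κ → ℝ) (n m : ℤ) :
    QL k f n m = CP (fun x w => f w x) k k n m := by
  ext p q
  simp only [QL, CP, BM, XR, Matrix.smul_apply, Matrix.sum_apply, vecMulVec_apply, smul_eq_mul]
  rw [mul_inv, mul_assoc]

/-- conjugation by a block diagonal matrix is the Gram matrix of the weighted slot -/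
theorem CP_conj (F : ℤ → Matrix κ κ ℝ) (c : ℤ → ℤ → κ → ℝ) (k a : ℕ) (n m : ℤ) :
    DB k m F * CP c k a n m * DB k m (fun x => (F x)ᵀ) = CP (fun x w => F x *ᵥ c x w) k a n m := by
  refine bk_ext fun i j => ?_
  unfold CP
  rw [bk_mul]
  simp only [bk_mul, bk_DB, bk_BM]
  simp only [ite_mul, zero_mul, mul_ite, mul_zero, Finset.sum_ite_eq, Finset.sum_ite_eq',
    Finset.mem_univ, if_true]
  rw [Matrix.mul_smul, Matrix.smul_mul]
  congr 1
  unfold XR
  rw [Matrix.mul_smul, Matrix.smul_mul, Matrix.mul_sum, Matrix.sum_mul]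
  congr 1
  refine Finset.sum_congr rfl fun w _ => ?_
  rw [mul_vecMulVec, vecMulVec_mul, vecMul_transpose]

section phsl

variable {n : Type*} [Fintype n] [DecidableEq n]

theorem phs_pos {s : ℝ} (hs : 0 < s) {X : Matrix n n ℝ} (hX : X.PosSemidef) :
    (phs s X).PosSemidef := (P075.phi_psd (hX.smul (inv_pos.2 hs).le)).smul hs.le

theorem phs_sub {s : ℝ} (hs : 0 < s) {X : Matrix n n ℝ} (hX : X.PosSemidef) :
    (X - phs s X).PosSemidef := by
  have h := (H874.phi_le (hX.smul (α := ℝ) (inv_pos.2 hs).le)).smul hs.le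
  rw [smul_sub, smul_smul, mul_inv_cancel₀ hs.ne', one_smul] at h
  exact h

end phsl

theorem hd_off (k : ℕ) {i j : Ix k} (h : i ≠ j) : hd k i j = 0 := by
  cases k with
  | zero => exact Matrix.one_apply_ne h
  | succ k =>
    show P075.rad (Ix k) i j = 0
    rcases i with i | i <;> rcases j with j | j
    · have : i ≠ j := fun e => h (by rw [e])
      simp [P075.rad, this]
    · simp [P075.rad]
    · simp [P075.rad]
    · have : i ≠ j := fun e => h (by rw [e])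
      simp [P075.rad, this]

/-- a block diagonal matrix of the hub commutes with the signs -/
theorem sk_DB (k : ℕ) (m : ℤ) (F : ℤ → Matrix κ κ ℝ) :
    sk k κ * DB k m F = DB k m F * sk k κ := by
  have hsk : ∀ i j : Ix k, bk (sk k κ) i j = hd k i j • (1 : Matrix κ κ ℝ) := by
    intro i j
    ext a b
    simp only [bk, sk, kroneckerMap_apply, Matrix.smul_apply, smul_eq_mul]
  refine bk_ext fun i j => ?_
  rw [bk_mul, bk_mul]
  simp only [hsk, bk_DB, mul_ite, ite_mul, mul_zero, zero_mul, Finset.sum_ite_eq,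
    Finset.sum_ite_eq', Finset.mem_univ, if_true]
  by_cases h : i = j
  · subst h
    rw [Matrix.smul_mul, Matrix.mul_smul, Matrix.one_mul, Matrix.mul_one]
  · rw [hd_off k h]
    simp

/-! ### The roots of the weight -/

/-- the root of the weight of the hub cell -/
def SD (be : ℝ) (T : ℕ → ℤ → ℤ → Matrix κ κ ℝ) (k a : ℕ) (n m : ℤ) :
    Matrix (Ix k × κ) (Ix k × κ) ℝ := DB k m fun x => H408.sq (be • (1 : Matrix κ κ ℝ) + T a x n)

section root

variable {be : ℝ} {T : ℕ → ℤ → ℤ → Matrix κ κ ℝ}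

theorem sqT_spec (hb : 0 < be) (h : ∀ k x m, (T k x m).PosSemidef) (a : ℕ) (x n : ℤ) :
    (H408.sq (be • (1 : Matrix κ κ ℝ) + T a x n)).PosDef ∧
      H408.sq (be • (1 : Matrix κ κ ℝ) + T a x n) * H408.sq (be • (1 : Matrix κ κ ℝ) + T a x n) =
        be • (1 : Matrix κ κ ℝ) + T a x n :=
  sq_spec ((PosDef.one.smul hb).add_posSemidef (h a x n))

theorem SD_psd (hb : 0 < be) (h : ∀ k x m, (T k x m).PosSemidef) (k a : ℕ) (n m : ℤ) :
    (SD be T k a n m).PosSemidef := DB_psd fun x => (sqT_spec hb h a x n).1.posSemidef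

theorem SD_sq (hb : 0 < be) (h : ∀ k x m, (T k x m).PosSemidef) (k a : ℕ) (n m : ℤ) :
    SD be T k a n m * SD be T k a n m = WD be T k a n m := by
  unfold SD WD
  rw [DB_mul]
  congr 1
  funext x
  exact (sqT_spec hb h a x n).2

theorem SD_inv (hb : 0 < be) (h : ∀ k x m, (T k x m).PosSemidef) (k a : ℕ) (n m : ℤ) :
    (SD be T k a n m)⁻¹ = DB k m fun x => (H408.sq (be • (1 : Matrix κ κ ℝ) + T a x n))⁻¹ :=
  DB_inv fun x => (sqT_spec hb h a x n).1

theorem SD_unit (hb : 0 < be) (h : ∀ k x m, (T k x m).PosSemidef) (k a : ℕ) (n m : ℤ) :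
    IsUnit (SD be T k a n m).det := by
  have e : SD be T k a n m * (DB k m fun x => (H408.sq (be • (1 : Matrix κ κ ℝ) + T a x n))⁻¹) = 1 := by
    unfold SD
    rw [DB_mul, ← DB_one k m]
    congr 1
    funext x
    exact mul_nonsing_inv _ ((isUnit_iff_isUnit_det _).mp (sqT_spec hb h a x n).1.isUnit)
  exact (isUnit_iff_isUnit_det _).mp (IsUnit.of_mul_eq_one _ e)

/-- the family of the second slot seen from the raw first slot -/
def PG (be s : ℝ) (T : ℕ → ℤ → ℤ → Matrix κ κ ℝ) (c : ℤ → ℤ → κ → ℝ) (k a : ℕ) (n m : ℤ) :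
    Matrix (Ix k × κ) (Ix k × κ) ℝ := pg s (TD T k a n m) (WD be T k a n m) (CP c k a n m)

theorem PG_root {s : ℝ} (hs : 0 < s) (hb : 0 < be) (h : ∀ k x m, (T k x m).PosSemidef)
    (c : ℤ → ℤ → κ → ℝ) (k a : ℕ) (n m : ℤ) :
    PG be s T c k a n m = TD T k a n m * ((SD be T k a n m)⁻¹ *
      phs s (SD be T k a n m * CP c k a n m * SD be T k a n m) * (SD be T k a n m)⁻¹) *
        TD T k a n m := by
  unfold PG
  rw [← SD_sq hb h, pg_root hs (P075.psd_isSymm (SD_psd hb h k a n m)) (SD_unit hb h k a n m)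
    (CP_psd c k a n m)]

theorem PG_psd {s : ℝ} (hs : 0 < s) (hb : 0 < be) (h : ∀ k x m, (T k x m).PosSemidef)
    (c : ℤ → ℤ → κ → ℝ) (k a : ℕ) (n m : ℤ) : (PG be s T c k a n m).PosSemidef :=
  pg_psd hs (P075.psd_isSymm (TD_psd h k a n m)) (WD_posDef hb h k a n m).posSemidef
    (CP_psd c k a n m)

end root

/-! ### The node -/

/-- the Gram matrix of `W ^ (1/2) C` -/
theorem QL_Ct {be l : ℝ} {N : ℕ} {S : ℤ} {G Kq : ℤ → ℕ → ℤ → Matrix κ κ ℝ} (hbe : 0 < be)
    (h : ∀ x, Tr l N (G x) (Kq x)) (c x0 : ℤ) (C : ℤ → ℤ → κ → ℝ) (k : ℕ) (n m : ℤ) :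
    QL k (Ct be l N S Kq c x0 C k) n m =
      SD be (fun a x j => Th l N S (Kq x) c x0 x a j) k k n m * CP (fun x z => C z x) k k n m *
        SD be (fun a x j => Th l N S (Kq x) c x0 x a j) k k n m := by
  have hs : (fun x => (H408.sq (be • (1 : Matrix κ κ ℝ) + Th l N S (Kq x) c x0 x k n))ᵀ) =
      fun x => H408.sq (be • (1 : Matrix κ κ ℝ) + Th l N S (Kq x) c x0 x k n) := by
    funext x
    exact (sqT_spec (T := fun a x j => Th l N S (Kq x) c x0 x a j) hbe
      (fun a x j => Th_psd (h x) c x0 x a j) k x n).1.isHermitian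
  have e := CP_conj (fun x => H408.sq (be • (1 : Matrix κ κ ℝ) + Th l N S (Kq x) c x0 x k n))
    (fun x z => C z x) k k n m
  rw [hs] at e
  unfold SD
  rw [e, QL_eq]
  ext p q
  simp only [CP, BM, XR, Matrix.smul_apply, Matrix.sum_apply, vecMulVec_apply, smul_eq_mul]
  refine congrArg _ (congrArg _ (Finset.sum_congr rfl fun w hw => ?_))
  unfold H408.Ct Wg
  rw [mem_iv.1 hw]

/-- the Gram matrix of `W ^ (-1/2) Th b` -/
theorem QL_Bt {be l : ℝ} {N : ℕ} {S : ℤ} {G Kq : ℤ → ℕ → ℤ → Matrix κ κ ℝ} (hbe : 0 < be)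
    (h : ∀ x, Tr l N (G x) (Kq x)) (c x0 : ℤ) (b : ℤ → ℤ → κ → ℝ) (k : ℕ) (j n m : ℤ) :
    QL k (fun y x => Bt be l N S Kq c x0 b k j x y) n m =
      (SD be (fun a x j => Th l N S (Kq x) c x0 x a j) k k j m)⁻¹ *
        (TD (fun a x j => Th l N S (Kq x) c x0 x a j) k k j m * CP b k k n m *
        TD (fun a x j => Th l N S (Kq x) c x0 x a j) k k j m) *
        (SD be (fun a x j => Th l N S (Kq x) c x0 x a j) k k j m)⁻¹ := by
  have hp : ∀ a x j, (Th l N S (Kq x) c x0 x a j).PosSemidef := fun a x j =>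
    Th_psd (h x) c x0 x a j
  rw [SD_inv (T := fun a x j => Th l N S (Kq x) c x0 x a j) hbe hp, QL_eq]
  have hT : (fun x => (Th l N S (Kq x) c x0 x k j)ᵀ) = fun x => Th l N S (Kq x) c x0 x k j := by
    funext x
    exact (hp k x j).isHermitian
  have e1 := CP_conj (fun x => Th l N S (Kq x) c x0 x k j) b k k n m
  rw [hT] at e1
  have hS : (fun x => ((H408.sq (be • (1 : Matrix κ κ ℝ) + Th l N S (Kq x) c x0 x k j))⁻¹)ᵀ) =
      fun x => (H408.sq (be • (1 : Matrix κ κ ℝ) + Th l N S (Kq x) c x0 x k j))⁻¹ := by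
    funext x
    exact (sqT_spec (T := fun a x j => Th l N S (Kq x) c x0 x a j) hbe hp k x j).1.isHermitian.inv
  have e2 := CP_conj (fun x => (H408.sq (be • (1 : Matrix κ κ ℝ) + Th l N S (Kq x) c x0 x k j))⁻¹)
    (fun x w => Th l N S (Kq x) c x0 x k j *ᵥ b x w) k k n m
  rw [hS] at e2
  unfold TD
  rw [e1, e2]
  rfl

/-- **The saturated pair at a node**, raw first slot. -/
theorem rBC_le {be l : ℝ} {N : ℕ} {S : ℤ} {G Kq : ℤ → ℕ → ℤ → Matrix κ κ ℝ} (hbe : 0 < be)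
    (h : ∀ x, Tr l N (G x) (Kq x)) (c x0 : ℤ) (b C : ℤ → ℤ → κ → ℝ) (k : ℕ) (m : Pt) {y z : ℝ}
    (hy : 0 < y) (hz : 0 < z) :
    rBC (Bt be l N S Kq c x0 b k m.1) (Ct be l N S Kq c x0 C k) k m y z ≤
      4 ^ k * (CP b k k m.2.1 m.2.2 * (sk k κ *
        PG be (z ^ 2) (fun a x j => Th l N S (Kq x) c x0 x a j) (fun x z => C z x) k k m.1 m.2.2 *
        sk k κ)).trace := by
  have hp : ∀ a x j, (Th l N S (Kq x) c x0 x a j).PosSemidef := fun a x j =>
    Th_psd (h x) c x0 x a j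
  unfold rBC
  refine mul_le_mul_of_nonneg_left ?_ (by positivity)
  rw [hdL_eq]
  set T : ℕ → ℤ → ℤ → Matrix κ κ ℝ := fun a x j => Th l N S (Kq x) c x0 x a j with hT
  set Z := sk k κ * phs (z ^ 2) (QL k (Ct be l N S Kq c x0 C k) m.1 m.2.2) * sk k κ with hZ
  have hz2 : 0 < z ^ 2 := by positivity
  have hy2 : 0 < y ^ 2 := by positivity
  have pC : (QL k (Ct be l N S Kq c x0 C k) m.1 m.2.2).PosSemidef := by
    rw [QL_eq]; exact CP_psd _ _ _ _ _
  have pB : (QL k (fun y x => Bt be l N S Kq c x0 b k m.1 x y) m.2.1 m.2.2).PosSemidef := by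
    rw [QL_eq]; exact CP_psd _ _ _ _ _
  have pZ : Z.PosSemidef := P075.psd_conj_symm (phs_pos hz2 pC) (sk_tr k)
  have h1 := P075.trace_mul_nonneg (phs_sub hy2 pB) pZ
  rw [Matrix.sub_mul, trace_sub] at h1
  refine (sub_nonneg.1 h1).trans (le_of_eq ?_)
  rw [QL_Bt hbe h, hZ, QL_Ct hbe h, PG_root hz2 hbe hp]
  set Si := (SD be T k k m.1 m.2.2)⁻¹ with hSi
  set Θ := TD T k k m.1 m.2.2 with hΘ
  set Y := phs (z ^ 2) (SD be T k k m.1 m.2.2 * CP (fun x z => C z x) k k m.1 m.2.2 *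
    SD be T k k m.1 m.2.2) with hY
  have c1 : sk k κ * Si = Si * sk k κ := by
    rw [hSi, SD_inv hbe hp]
    exact sk_DB k m.2.2 _
  have c2 : sk k κ * Θ = Θ * sk k κ := sk_DB k m.2.2 _
  have e1 : (Si * (Θ * CP b k k m.2.1 m.2.2 * Θ) * Si * (sk k κ * Y * sk k κ)).trace =
      (CP b k k m.2.1 m.2.2 * (Θ * Si * sk k κ * Y * sk k κ * Si * Θ)).trace := by
    rw [show Si * (Θ * CP b k k m.2.1 m.2.2 * Θ) * Si * (sk k κ * Y * sk k κ) =
      (Si * Θ) * (CP b k k m.2.1 m.2.2 * (Θ * Si * sk k κ * Y * sk k κ)) by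
        simp only [Matrix.mul_assoc], Matrix.trace_mul_comm]
    simp only [Matrix.mul_assoc]
  rw [e1]
  congr 2
  calc Θ * Si * sk k κ * Y * sk k κ * Si * Θ
      = Θ * (Si * sk k κ) * Y * ((sk k κ * Si) * Θ) := by simp only [Matrix.mul_assoc]
    _ = Θ * (sk k κ * Si) * Y * ((Si * sk k κ) * Θ) := by rw [c1]
    _ = (Θ * sk k κ) * Si * Y * (Si * (sk k κ * Θ)) := by simp only [Matrix.mul_assoc]
    _ = (sk k κ * Θ) * Si * Y * (Si * (Θ * sk k κ)) := by rw [c2]
    _ = sk k κ * (Θ * (Si * Y * Si) * Θ) * sk k κ := by simp only [Matrix.mul_assoc]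

end

end Vale.Agent.P141.H457
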