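import Vale.Agent.P141.H457.RealBC

/-!
# P141, line (A), TI, the pair `(B~, C~)`: families cut to the root

* `ct S R f` : the slot cut to the rows of the root `iv N S × iv N R`;
* `CP_ext`, `PG_ext` : inside the root the cut changes nothing;
* `CP_cut_cap`, `SD_cut_cap` : caps inside the root are caps of the cut family at every cell;
* `gnV_ext` : the sum of the gains over the root is the one of the cut families.
-/

set_option linter.unusedSectionVars false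

namespace Vale.Agent.P141.H457

open Finset Matrix
open Vale.Agent.P075 (Ix val bd rad res phi exists_sq psd_isSymm psd_conj_symm trace_mul_nonneg)
open Vale.Agent.P141.PL (iv ix mem_iv ix_ix)
open Vale.Agent.P141.PL.H103 Vale.Agent.P141.H103
open Vale.Agent.P141.H419.PairB (gnV)
open Vale.Agent.P141.H874

noncomputable section

variable {κ : Type*} [Fintype κ] [DecidableEq κ]

open scoped Classical in
/-- the slot cut to the root -/
def ct (N : ℕ) (S R : ℤ) (f : ℤ → ℤ → κ → ℝ) : ℤ → ℤ → κ → ℝ := fun x w =>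
  if x ∈ iv N S ∧ w ∈ iv N R then f x w else 0

theorem ct_in {N : ℕ} {S R : ℤ} (f : ℤ → ℤ → κ → ℝ) {x w : ℤ} (hx : x ∈ iv N S) (hw : w ∈ iv N R) :
    ct N S R f x w = f x w := by
  unfold ct
  rw [if_pos ⟨hx, hw⟩]

theorem ct_out {N : ℕ} {S R : ℤ} (f : ℤ → ℤ → κ → ℝ) {x w : ℤ} (h : ¬ (x ∈ iv N S ∧ w ∈ iv N R)) :
    ct N S R f x w = 0 := by
  unfold ct
  rw [if_neg h]

theorem iv_up {N k : ℕ} (hk : k ≤ N) {S m x : ℤ} (hx : x ∈ iv k m) :
    m ∈ iv (N - k) S ↔ x ∈ iv N S := by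
  rw [mem_iv] at hx
  rw [mem_iv, mem_iv, ← hx, ix_ix, Nat.add_sub_cancel' hk]

/-- the Gram matrix only sees the rows of its two cells -/
theorem CP_congr {k a : ℕ} {n m : ℤ} {f g : ℤ → ℤ → κ → ℝ}
    (h : ∀ x ∈ iv k m, ∀ w ∈ iv a n, f x w = g x w) : CP f k a n m = CP g k a n m := by
  ext p q
  simp only [CP, BM, XR, Matrix.smul_apply, Matrix.sum_apply, vecMulVec_apply, smul_eq_mul]
  congr 2
  refine Finset.sum_congr rfl fun w hw => ?_
  rw [h _ (mem_iv.2 (H389.cell_ix p.1)) w hw, h _ (mem_iv.2 (H389.cell_ix q.1)) w hw]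

theorem CP_ext {N k a : ℕ} (hk : k ≤ N) (ha : a ≤ N) {S R : ℤ} {f g : ℤ → ℤ → κ → ℝ}
    (h : ∀ x ∈ iv N S, ∀ w ∈ iv N R, f x w = g x w) {n m : ℤ} (hm : m ∈ iv (N - k) S)
    (hn : n ∈ iv (N - a) R) : CP f k a n m = CP g k a n m :=
  CP_congr fun x hx w hw => h x ((iv_up hk hx).1 hm) w ((iv_up ha hw).1 hn)

theorem CP_zero' (k a : ℕ) (n m : ℤ) : CP (fun _ _ => (0 : κ → ℝ)) k a n m = 0 := by
  ext p q
  simp [CP, BM, XR]

theorem CP_out_root {N k a : ℕ} (hk : k ≤ N) (ha : a ≤ N) {S R : ℤ} (f : ℤ → ℤ → κ → ℝ) {n m : ℤ}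
    (h : ¬ (m ∈ iv (N - k) S ∧ n ∈ iv (N - a) R)) : CP (ct N S R f) k a n m = 0 := by
  rw [← CP_zero' k a n m]
  refine CP_congr fun x hx w hw => ct_out f fun hh => h ⟨(iv_up hk hx).2 hh.1, (iv_up ha hw).2 hh.2⟩

/-- **Caps of the cut family**, first slot. -/
theorem CP_cut_cap {N k a : ℕ} (hk : k ≤ N) (ha : a ≤ N) {S R : ℤ} {q : ℝ} (hq : 0 ≤ q)
    {f : ℤ → ℤ → κ → ℝ}
    (h : ∀ n ∈ iv (N - a) R, ∀ m ∈ iv (N - k) S,
      (q • (1 : Matrix (Ix k × κ) (Ix k × κ) ℝ) - CP f k a n m).PosSemidef) (n m : ℤ) :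
    (q • (1 : Matrix (Ix k × κ) (Ix k × κ) ℝ) - CP (ct N S R f) k a n m).PosSemidef := by
  by_cases hh : m ∈ iv (N - k) S ∧ n ∈ iv (N - a) R
  · rw [CP_ext (f := ct N S R f) (g := f) hk ha (fun x hx w hw => ct_in f hx hw) hh.1 hh.2]
    exact h n hh.2 m hh.1
  · rw [CP_out_root hk ha f hh, sub_zero]
    exact PosSemidef.one.smul hq

/-- **Caps of the cut family**, second slot. -/
theorem SD_cut_cap {be : ℝ} {T : ℕ → ℤ → ℤ → Matrix κ κ ℝ} {N k a : ℕ} (hk : k ≤ N) (ha : a ≤ N)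
    {S R : ℤ} {q : ℝ} (hq : 0 ≤ q) {f : ℤ → ℤ → κ → ℝ}
    (h : ∀ n ∈ iv (N - a) R, ∀ m ∈ iv (N - k) S,
      (q • (1 : Matrix (Ix k × κ) (Ix k × κ) ℝ) -
        SD be T k a n m * CP f k a n m * SD be T k a n m).PosSemidef) (n m : ℤ) :
    (q • (1 : Matrix (Ix k × κ) (Ix k × κ) ℝ) -
      SD be T k a n m * CP (ct N S R f) k a n m * SD be T k a n m).PosSemidef := by
  by_cases hh : m ∈ iv (N - k) S ∧ n ∈ iv (N - a) R
  · rw [CP_ext (f := ct N S R f) (g := f) hk ha (fun x hx w hw => ct_in f hx hw) hh.1 hh.2]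
    exact h n hh.2 m hh.1
  · rw [CP_out_root hk ha f hh, Matrix.mul_zero, Matrix.zero_mul, sub_zero]
    exact PosSemidef.one.smul hq

theorem GW_congr_in {N : ℕ} {R S T : ℤ} {k : ℕ} {c : ℤ} {g g' : ℤ → ℤ → ℤ → ℝ}
    (h : ∀ m ∈ iv (N - k) S, ∀ n ∈ iv (N - k) R, ∀ n' ∈ iv (N - k) T, g n n' m = g' n n' m) :
    GW N R S T k c g = GW N R S T k c g' := by
  unfold GW
  congr 1
  refine Finset.sum_congr rfl fun m hm => Finset.sum_congr rfl fun n hn => ?_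
  by_cases hc : c - m - n ∈ iv (N - k) T
  · rw [if_pos hc, if_pos hc, h m hm n hn _ hc]
  · rw [if_neg hc, if_neg hc]

/-- **The gains of the cut families.** -/
theorem gnV_ext {be s : ℝ} {T : ℕ → ℤ → ℤ → Matrix κ κ ℝ} {N : ℕ} {R₁ S₁ T₁ : ℤ}
    (b b' c c' : ℕ → ℤ → ℤ → κ → ℝ) {k : ℕ} (hk : k < N) (cc : ℤ)
    (hb : ∀ x ∈ iv N S₁, ∀ w ∈ iv N R₁, b (k + 1) x w = b' (k + 1) x w)
    (hc : ∀ x ∈ iv N S₁, ∀ w ∈ iv N T₁, c (k + 1) x w = c' (k + 1) x w) :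
    GW N R₁ S₁ T₁ (k + 1) cc (gnV (ι := fun k => Ix k × κ) (fun k a n m => CP (b k) k a n m)
        (fun k a n m => PG be s T (c k) k a n m) (fun k => sk (k + 1) κ) k) =
      GW N R₁ S₁ T₁ (k + 1) cc (gnV (ι := fun k => Ix k × κ) (fun k a n m => CP (b' k) k a n m)
        (fun k a n m => PG be s T (c' k) k a n m) (fun k => sk (k + 1) κ) k) := by
  refine GW_congr_in fun m hm n hn n' hn' => ?_
  unfold gnV PG
  have e1 := CP_ext (k := k + 1) (a := k + 1) hk hk hb hm hn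
  have e2 := CP_ext (k := k + 1) (a := k + 1) hk hk hc hm hn'
  simp only [e1, e2]

/-- changes of the cut path sit on the row pieces of the path -/
theorem ct_chg {N k : ℕ} (hk : k ≤ N) {S R : ℤ} {P : ℤ → ℤ → Prop} {f f' : ℤ → ℤ → κ → ℝ}
    (h : ∀ w ∈ iv N R, ∀ m ∈ iv (N - k) S, ¬ P w m → ∀ x ∈ iv k m, f' x w = f x w) :
    ∀ w m, ¬ P w m → ∀ x ∈ iv k m, ct N S R f' x w = ct N S R f x w := by
  intro w m hP x hx
  by_cases hh : x ∈ iv N S ∧ w ∈ iv N R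
  · rw [ct_in _ hh.1 hh.2, ct_in _ hh.1 hh.2]
    exact h w hh.2 m ((iv_up hk hx).2 hh.1) hP x hx
  · rw [ct_out _ hh, ct_out _ hh]

end

end Vale.Agent.P141.H457
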