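import Vale.Agent.P141.H457.CutBC
import Vale.Agent.P141.H736.LbcX
import Vale.Agent.P141.H419.WFamR
import Vale.Agent.P141.H784.PayB
import Vale.Agent.P141.H581.TVCP

/-!
# P141, line (A), TI, the pair `(B~, C~)`: the numbers of the cut families

All point sums over the root, and all box sums, see the cut family as the family itself.
-/

set_option linter.unusedSectionVars false

namespace Vale.Agent.P141.H457

open Finset Matrix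
open Vale.Agent.P075 (Ix val bd rad res phi exists_sq psd_isSymm psd_conj_symm trace_mul_nonneg)
open Vale.Agent.P141.PL (iv ix mem_iv ix_ix)
open Vale.Agent.P141.PL.H103 Vale.Agent.P141.H103
open Vale.Agent.P141.H784 (av)
open Vale.Agent.P141.H581.TVCP (mB)
open Vale.Agent.P141.H736 (wE)
open Vale.Agent.P141.H874

noncomputable section

variable {κ : Type*} [Fintype κ] [DecidableEq κ]

variable {N : ℕ} {S R : ℤ}

/-- any functional of the rows -/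
theorem sum_ct (f : ℤ → ℤ → κ → ℝ) (F : ℤ → ℤ → (κ → ℝ) → ℝ) :
    ∑ x ∈ iv N S, ∑ w ∈ iv N R, F x w (ct N S R f x w) =
      ∑ x ∈ iv N S, ∑ w ∈ iv N R, F x w (f x w) :=
  Finset.sum_congr rfl fun x hx => Finset.sum_congr rfl fun w hw => by rw [ct_in f hx hw]

theorem rs_ct (P : ℤ → ℤ → Prop) (k : ℕ) (f : ℤ → ℤ → κ → ℝ) :
    rs P k (ct N S R f) = ct N S R (rs P k f) := by
  funext x w
  by_cases h1 : x ∈ iv N S ∧ w ∈ iv N R
  · rw [ct_in _ h1.1 h1.2]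
    unfold rs
    rw [ct_in _ h1.1 h1.2]
  · rw [ct_out _ h1]
    unfold rs
    rw [ct_out _ h1, ite_self]

theorem mB_ct (f : ℤ → ℤ → κ → ℝ) : mB N R S (ct N S R f) = mB N R S f :=
  sum_ct f fun _ _ v => v ⬝ᵥ v

theorem mB_rs_ct (P : ℤ → ℤ → Prop) (k : ℕ) (f : ℤ → ℤ → κ → ℝ) :
    mB N R S (rs P k (ct N S R f)) = mB N R S (rs P k f) := by
  rw [rs_ct, mB_ct]

theorem quad_ct (f : ℤ → ℤ → κ → ℝ) (F : ℤ → ℤ → Matrix κ κ ℝ) :
    ∑ x ∈ iv N S, ∑ w ∈ iv N R, ct N S R f x w ⬝ᵥ F x w *ᵥ ct N S R f x w =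
      ∑ x ∈ iv N S, ∑ w ∈ iv N R, f x w ⬝ᵥ F x w *ᵥ f x w :=
  sum_ct f fun x w v => v ⬝ᵥ F x w *ᵥ v

theorem wE_sum_ct (be : ℝ) (T : ℕ → ℤ → ℤ → Matrix κ κ ℝ) (k : ℕ) (f : ℤ → ℤ → κ → ℝ) :
    ∑ x ∈ iv N S, ∑ w ∈ iv N R, wE be T k (ct N S R f) x w =
      ∑ x ∈ iv N S, ∑ w ∈ iv N R, wE be T k f x w :=
  quad_ct f fun x w => be • (1 : Matrix κ κ ℝ) + T k x (ix k w)

open scoped Classical in
theorem wE_mark_ct (be : ℝ) (T : ℕ → ℤ → ℤ → Matrix κ κ ℝ) (k : ℕ) (f : ℤ → ℤ → κ → ℝ)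
    (Q : ℤ → ℤ → Prop) :
    ∑ x ∈ iv N S, ∑ w ∈ iv N R, (if Q x w then wE be T k (ct N S R f) x w else 0) =
      ∑ x ∈ iv N S, ∑ w ∈ iv N R, (if Q x w then wE be T k f x w else 0) :=
  sum_ct f fun x w v => if Q x w then v ⬝ᵥ (be • (1 : Matrix κ κ ℝ) + T k x (ix k w)) *ᵥ v else 0

theorem Wn_ct (be : ℝ) (T : ℕ → ℤ → ℤ → Matrix κ κ ℝ) (f : ℤ → ℤ → κ → ℝ) (a : ℕ) :
    H419.WFamR.Wn N R S be T (ct N S R f) a = H419.WFamR.Wn N R S be T f a :=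
  quad_ct f fun x w => be • (1 : Matrix κ κ ℝ) + T a x (ix a w)

theorem Dn_ct (d : ℕ → ℤ → ℤ → Matrix κ κ ℝ) (f : ℤ → ℤ → κ → ℝ) (a : ℕ) :
    H419.WFamR.Dn N R S d (ct N S R f) a = H419.WFamR.Dn N R S d f a :=
  sum_ct f fun x w v => (d a x (ix (a + 1) w) *ᵥ v) ⬝ᵥ (d a x (ix (a + 1) w) *ᵥ v)

theorem En_ct (e : ℕ → ℤ → ℤ → Matrix κ κ ℝ) (f : ℤ → ℤ → κ → ℝ) (a : ℕ) :
    H419.WFamR.En N R S e (ct N S R f) a = H419.WFamR.En N R S e f a :=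
  quad_ct f fun x w => e a x (ix (a + 1) w)

/-- averages over the boxes of the root -/
theorem av_ct {k : ℕ} (hk : k ≤ N) {n m : ℤ} (hn : n ∈ iv (N - k) R) (hm : m ∈ iv (N - k) S)
    (f : ℤ → ℤ → κ → ℝ) (F : ℤ → ℤ → (κ → ℝ) → ℝ) :
    av k n m (fun x y => F x y (ct N S R f x y)) = av k n m fun x y => F x y (f x y) := by
  unfold av
  congr 1
  refine Finset.sum_congr rfl fun x hx => Finset.sum_congr rfl fun y hy => ?_
  show F x y (ct N S R f x y) = F x y (f x y)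
  rw [ct_in f ((iv_up hk hx).1 hm) ((iv_up hk hy).1 hn)]

theorem GW_av_ct {k : ℕ} (hk : k ≤ N) (T₁ cc : ℤ) (f : ℤ → ℤ → κ → ℝ)
    (F : ℤ → ℤ → Matrix κ κ ℝ) :
    GW N R S T₁ k cc (fun n n' m => av k n m fun x y =>
        ct N S R f x y ⬝ᵥ F n' x *ᵥ ct N S R f x y) =
      GW N R S T₁ k cc (fun n n' m => av k n m fun x y => f x y ⬝ᵥ F n' x *ᵥ f x y) :=
  GW_congr_in fun m hm n hn n' _ => av_ct hk hn hm f fun x _ v => v ⬝ᵥ F n' x *ᵥ v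

end

end Vale.Agent.P141.H457
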