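import Vale.Agent.P141.H457.RealBC
import Vale.Agent.P141.H784.PayB
import Vale.Agent.P141.H92.NumAC

/-!
# P141, line (A), TI, the pair `(B~, C~)`: the losses as plain sums

Fixed `x₀`. Averages over the cells of the node (`H784.av`), sums over the points of the root.
-/

set_option linter.unusedSectionVars false

namespace Vale.Agent.P141.H457

open Finset Matrix
open Vale.Agent.P075 (Ix val bd rad phi exists_sq psd_isSymm psd_conj_symm trace_mul_nonneg)
open Vale.Agent.P141.PL (iv ix mem_iv)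
open Vale.Agent.P141.PL.H103 Vale.Agent.P141.H103
open Vale.Agent.P141.H585.PairCh (phs)
open Vale.Agent.P141.H585.PairO (mh)
open Vale.Agent.P141.H419.PairW (pq pg pg_root pg_psd bt bt_cap)
open Vale.Agent.P141.H419.PairB (WPair mvM mvD gnV)
open Vale.Agent.P141.H389 (mn TV)
open Vale.Agent.P141.H784 (av four_av)
open Vale.Agent.P141.H874

noncomputable section

variable {κ : Type*} [Fintype κ] [DecidableEq κ]

/-! ### Averages over the two halves of the hub -/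

theorem halves_av (f : ℤ → ℤ → κ → ℝ) (F : ℤ → Matrix κ κ ℝ) (k : ℕ) (n m : ℤ) :
    mh (fun h => (CP f k (k + 1) n h * DB k h F).trace) m =
      av (k + 1) n m fun x y => f x y ⬝ᵥ F x *ᵥ f x y := by
  unfold mh av
  simp only [trace_CP_DB]
  rw [H389.sum_iv_succ' k m]
  have e : ((2 : ℝ) ^ (k + 1) * 2 ^ (k + 1))⁻¹ = (1 / 2) * ((2 : ℝ) ^ k * 2 ^ (k + 1))⁻¹ := by
    rw [pow_succ (2 : ℝ) k, mul_inv, mul_inv, mul_inv]
    ring
  rw [e]
  ring

/-- sums of averages over the root -/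
theorem sum_av {N k : ℕ} (hk : k ≤ N) (S T : ℤ) (f : ℤ → ℤ → ℤ → ℝ) :
    (4 : ℝ) ^ k * ∑ m ∈ iv (N - k) S, ∑ n ∈ iv (N - k) T, av k n m (fun x z => f x z n) =
      ∑ x ∈ iv N S, ∑ z ∈ iv N T, f x z (ix k z) := by
  rw [mul_sum, H784.sum_cells hk S]
  refine Finset.sum_congr rfl fun m _ => ?_
  rw [mul_sum]
  have e : ∀ n, (4 : ℝ) ^ k * av k n m (fun x z => f x z n) =
      ∑ x ∈ iv k m, ∑ z ∈ iv k n, f x z (ix k z) := by
    intro n
    rw [four_av]
    refine Finset.sum_congr rfl fun x _ => Finset.sum_congr rfl fun z hz => ?_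
    rw [mem_iv.1 hz]
  simp only [e]
  rw [Finset.sum_comm]
  refine Finset.sum_congr rfl fun x _ => ?_
  exact (H784.sum_cells hk T _).symm

section terms

variable {be : ℝ} {T e d : ℕ → ℤ → ℤ → Matrix κ κ ℝ}

/-- the matrix of the variation, node of scale `k + 1`, cell `n` of `x₃` -/
def Fv (be : ℝ) (T d : ℕ → ℤ → ℤ → Matrix κ κ ℝ) (k : ℕ) (n x : ℤ) : Matrix κ κ ℝ :=
  d k x n * (be • (1 : Matrix κ κ ℝ) + T (k + 1) x n)⁻¹ * d k x n

theorem MSSM (hb : 0 < be) (hT : ∀ k x m, (T k x m).PosSemidef) (k : ℕ) (n h : ℤ) :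
    TD d k k n h * ((SD be T k (k + 1) n h)⁻¹ * (SD be T k (k + 1) n h)⁻¹) * TD d k k n h =
      DB k h (Fv be T d k n) := by
  rw [← Matrix.mul_inv_rev, SD_sq hb hT, WD, DB_inv fun x =>
    (PosDef.one.smul hb).add_posSemidef (hT (k + 1) x n)]
  unfold TD
  rw [DB_mul, DB_mul]
  rfl

/-- **variation against the first slot** -/
theorem zb_av (hb : 0 < be) (hT : ∀ k x m, (T k x m).PosSemidef) (b : ℤ → ℤ → κ → ℝ) (k : ℕ)
    (n n' m : ℤ) :
    mh (fun h => (CP b k (k + 1) n h * (TD d k k n' h * ((SD be T k (k + 1) n' h)⁻¹ *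
      (SD be T k (k + 1) n' h)⁻¹) * TD d k k n' h)).trace) m =
      av (k + 1) n m fun x y => b x y ⬝ᵥ Fv be T d k n' x *ᵥ b x y := by
  simp only [MSSM hb hT]
  exact halves_av _ _ _ _ _

/-- **drift against the first slot** -/
theorem eb_av (b : ℤ → ℤ → κ → ℝ) (k : ℕ) (n n' m : ℤ) :
    mh (fun h => (CP b k (k + 1) n h * TD e k k n' h).trace) m =
      av (k + 1) n m fun x y => b x y ⬝ᵥ e k x n' *ᵥ b x y :=
  halves_av _ (fun x => e k x n') _ _ _

/-- two children of the outer variable -/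
theorem two_CP (f : ℤ → ℤ → κ → ℝ) (k : ℕ) (n h : ℤ) :
    CP f k k (2 * n) h + CP f k k (2 * n + 1) h = (2 : ℝ) • CP f k (k + 1) n h := by
  rw [← mn_CP]
  unfold mn
  rw [smul_smul]
  norm_num

/-- **variation against the second slot** -/
theorem zm_av (hb : 0 < be) (hT : ∀ k x m, (T k x m).PosSemidef) (c : ℕ → ℤ → ℤ → κ → ℝ) (k : ℕ)
    (n m : ℤ) :
    mh (fun h => mvM (ι := fun k => Ix k × κ) (fun k n h => SD be T k (k + 1) n h)
      (fun k n h => TD d k k n h) (fun k n h => CP (c (k + 1)) k k (2 * n) h)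
      (fun k n h => CP (c (k + 1)) k k (2 * n + 1) h) k n h) m =
      2 * av (k + 1) n m fun x z => c (k + 1) x z ⬝ᵥ Fv be T d k n x *ᵥ c (k + 1) x z := by
  have e : ∀ h, mvM (ι := fun k => Ix k × κ) (fun k n h => SD be T k (k + 1) n h)
      (fun k n h => TD d k k n h) (fun k n h => CP (c (k + 1)) k k (2 * n) h)
      (fun k n h => CP (c (k + 1)) k k (2 * n + 1) h) k n h =
      2 * (CP (c (k + 1)) k (k + 1) n h * DB k h (Fv be T d k n)).trace := by
    intro h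
    unfold mvM
    rw [MSSM hb hT, ← trace_add, ← Matrix.mul_add, two_CP, Matrix.mul_smul, trace_smul,
      smul_eq_mul, trace_mul_comm]
  simp only [e]
  rw [← halves_av]
  unfold mh
  ring

/-- **drift against the second slot** -/
theorem em_av (c : ℕ → ℤ → ℤ → κ → ℝ) (k : ℕ) (n m : ℤ) :
    mh (fun h => mvD (ι := fun k => Ix k × κ) (fun k n h => TD e k k n h)
      (fun k n h => CP (c (k + 1)) k k (2 * n) h)
      (fun k n h => CP (c (k + 1)) k k (2 * n + 1) h) k n h) m =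
      2 * av (k + 1) n m fun x z => c (k + 1) x z ⬝ᵥ e k x n *ᵥ c (k + 1) x z := by
  have e' : ∀ h, mvD (ι := fun k => Ix k × κ) (fun k n h => TD e k k n h)
      (fun k n h => CP (c (k + 1)) k k (2 * n) h)
      (fun k n h => CP (c (k + 1)) k k (2 * n + 1) h) k n h =
      2 * (CP (c (k + 1)) k (k + 1) n h * DB k h (fun x => e k x n)).trace := by
    intro h
    unfold mvD
    rw [← trace_add, ← Matrix.mul_add, two_CP, Matrix.mul_smul, trace_smul, smul_eq_mul,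
      trace_mul_comm]
    rfl
  simp only [e']
  rw [← halves_av]
  unfold mh
  ring

end terms

/-! ### The raw partner -/

theorem tr_CP (f : ℤ → ℤ → κ → ℝ) (k a : ℕ) (n m : ℤ) :
    (CP f k a n m).trace = ((2 : ℝ) ^ k * 2 ^ a)⁻¹ * ∑ x ∈ iv k m, ∑ y ∈ iv a n,
      f x y ⬝ᵥ f x y := by
  have h := trace_CP_DB f (fun _ => (1 : Matrix κ κ ℝ)) k a n m
  rw [DB_one, Matrix.mul_one] at h
  rw [h]
  simp only [Matrix.one_mulVec]

/-- the cap passes to coarser outer cells -/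
theorem CP_cap_up {q : ℝ} {f : ℤ → ℤ → κ → ℝ} {k : ℕ}
    (h : ∀ n m, (q • (1 : Matrix (Ix k × κ) (Ix k × κ) ℝ) - CP f k k n m).PosSemidef) :
    ∀ l n m, (q • (1 : Matrix (Ix k × κ) (Ix k × κ) ℝ) - CP f k (k + l) n m).PosSemidef := by
  intro l
  induction l with
  | zero => exact h
  | succ l ih =>
    intro n m
    have h0 := ((ih (2 * n) m).add (ih (2 * n + 1) m)).smul (show (0 : ℝ) ≤ 1 / 2 by norm_num)
    have e := CP_out (k + l + 1) k f (k + l) (Nat.le_add_right _ _) (Nat.lt_succ_self _) n m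
    rw [← add_assoc, e]
    have e2 : (1 / 2 : ℝ) • (q • (1 : Matrix (Ix k × κ) (Ix k × κ) ℝ) - CP f k (k + l) (2 * n) m +
        (q • (1 : Matrix (Ix k × κ) (Ix k × κ) ℝ) - CP f k (k + l) (2 * n + 1) m)) =
        q • (1 : Matrix (Ix k × κ) (Ix k × κ) ℝ) -
        (1 / 2 : ℝ) • (CP f k (k + l) (2 * n) m + CP f k (k + l) (2 * n + 1) m) := by
      module
    rwa [e2] at h0

theorem tr_sq_le {n : Type*} [Fintype n] [DecidableEq n] {q : ℝ} {X : Matrix n n ℝ}
    (hX : X.PosSemidef) (hq : (q • (1 : Matrix n n ℝ) - X).PosSemidef) :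
    (X * X).trace ≤ q * X.trace := by
  have h := trace_mul_nonneg hX hq
  rw [Matrix.mul_sub, Matrix.mul_smul, Matrix.mul_one, trace_sub, trace_smul, smul_eq_mul] at h
  linarith

/-- the sum of the traces over the root -/
theorem sum_tr_CP {N k a : ℕ} (hk : k ≤ N) (ha : a ≤ N) (R S : ℤ) (f : ℤ → ℤ → κ → ℝ) :
    (2 : ℝ) ^ a * 2 ^ k * ∑ m ∈ iv (N - k) S, ∑ n ∈ iv (N - a) R, (CP f k a n m).trace =
      ∑ x ∈ iv N S, ∑ y ∈ iv N R, f x y ⬝ᵥ f x y := by
  simp only [tr_CP, ← mul_sum]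
  have e := H92.sum_root (N := N) hk ha S R (fun x y => f x y ⬝ᵥ f x y)
  have e1 : ∑ m ∈ iv (N - k) S, ∑ n ∈ iv (N - a) R, ∑ x ∈ iv k m, ∑ y ∈ iv a n,
      f x y ⬝ᵥ f x y = ∑ x ∈ iv N S, ∑ y ∈ iv N R, f x y ⬝ᵥ f x y := by
    rw [← e, Finset.sum_comm]
  rw [e1, ← mul_assoc, mul_comm ((2 : ℝ) ^ k) (2 ^ a), mul_inv_cancel₀ (by positivity), one_mul]

/-- the own energy of the raw family with the cap `q` -/
theorem EW_CP {N k a : ℕ} (hk : k ≤ N) (hka : k ≤ a) (ha : a ≤ N) (R S : ℤ) {q : ℝ}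
    {f : ℤ → ℤ → κ → ℝ}
    (cap : ∀ n m, (q • (1 : Matrix (Ix k × κ) (Ix k × κ) ℝ) - CP f k k n m).PosSemidef) :
    EW N R S k (CP f k) a ≤ q * ∑ x ∈ iv N S, ∑ y ∈ iv N R, f x y ⬝ᵥ f x y := by
  obtain ⟨l, rfl⟩ := Nat.exists_eq_add_of_le hka
  unfold EW
  have h1 : ∑ m ∈ iv (N - k) S, ∑ n ∈ iv (N - (k + l)) R,
      (CP f k (k + l) n m * CP f k (k + l) n m).trace ≤
      q * ∑ m ∈ iv (N - k) S, ∑ n ∈ iv (N - (k + l)) R, (CP f k (k + l) n m).trace := by
    simp only [Finset.mul_sum]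
    exact Finset.sum_le_sum fun m _ => Finset.sum_le_sum fun n _ =>
      tr_sq_le (CP_psd _ _ _ _ _) (CP_cap_up cap l n m)
  have h0 : (0 : ℝ) ≤ 2 ^ (k + l) * 2 ^ k := by positivity
  rw [← sum_tr_CP hk ha R S f, mul_left_comm]
  exact mul_le_mul_of_nonneg_left h1 h0

end

end Vale.Agent.P141.H457
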